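import Vale.Agent.P281.J
import Vale.Agent.P281.H713.SA.Defs

/-! P281, theorem TL: definitions of the statement. -/

open scoped Manifold ContDiff Topology
open Set Filter Vale.Agent.P281 Vale.Agent.P272.K

noncomputable section

namespace Vale.Agent.P281.H713.TL

/-! ### definitions of the final statement -/

section

variable {n p : ℕ} {X Z Y : Type} [TopologicalSpace X] [ChartedSpace (Cm n) X]
  [TopologicalSpace Z] [ChartedSpace (Cm n) Z] [TopologicalSpace Y] [ChartedSpace (Cm p) Y]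

/-- The coefficients of `f^*(dy_1 ∧ ... ∧ dy_p)^{⊗ m}` at `z ∈ Z`, in the chart of `X` at `x`, and
the chart of `Y` at `f z`: product of minors of order `p` of the matrix of `df`. -/
def minors (m : ℕ) (j : Z → X) (f : Z → Y) (x : X) (z : Z) (I : Fin m → Fin p → Fin n) : ℂ :=
  ∏ r, Matrix.det (Matrix.of fun a b : Fin p => (mfderiv 𝓘(ℂ, Cm n) 𝓘(ℂ, Cm p) f z : Cm n →L[ℂ] Cm p)
    (Ring.inverse (M₀ := Cm n →L[ℂ] Cm n)
      (mfderiv 𝓘(ℂ, Cm n) 𝓘(ℂ, Cm n) (fun w => chartAt (Cm n) x (j w)) z)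
      (Pi.single (I r b) 1)) a)

/-- `σ` is a meromorphic section of `m K_Y` (with poles on the prime divisors `G ∈ 𝒢`; it is recorded
as in `IsSection`), whose pull-back by `f : X ⇢ Y` (holomorphic on the open subset `Z` of `X`) is a
section of `(Ω^p_X)^{⊗ m}` with poles of order at most `K D` along the divisors `D`, and no other
poles. -/
structure IsPullSection (m : ℕ) (K : Set X → ℕ) (𝒢 : Set (Set Y)) (j : Z → X) (f : Z → Y)
    (σ : Y → ℂ) : Prop where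
  mero : ∃ k : Set Y → ℕ, (∀ G, k G ≠ 0 → G ∈ 𝒢) ∧
    J.IsSection (Cm p) (fun (G : Set Y) y g => J.IsLocalEq (Cm p) G g y) m k σ
  pole : ∀ x : X, ∃ (T : Finset (Set X)) (g : Set X → X → ℂ), (∀ D, K D ≠ 0 → D ∈ T) ∧
    (∀ D ∈ T, J.IsLocalEq (Cm n) D (g D) x) ∧ ∀ I : Fin m → Fin p → Fin n, ∃ a : X → ℂ,
      J.HolAt (Cm n) a x ∧ ∀ᶠ y in 𝓝 x, ∀ z, j z = y → (∀ G ∈ 𝒢, f z ∉ G) →
        ∏ D ∈ T, g D y ^ K D ≠ 0 →
          σ (f z) * minors m j f x z I * ∏ D ∈ T, g D y ^ K D = a y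

/-- The orbifold base dimension of `f : X ⇢ Y` and `Δ`: the supremum of the `l` such that, for some
`m > 0`, there are meromorphic sections `σ_0, ..., σ_l` of `m K_Y`, whose pull-backs to `X` are
sections of `(Ω^p_X)^{⊗ m}` with poles `≤ m Δ`, for which the map `(σ_1 / σ_0, ..., σ_l / σ_0)` is
submersive somewhere. -/
def kodF (Δ : Set X → ℝ) (j : Z → X) (f : Z → Y) : WithBot ℕ∞ :=
  ⨆ (l : ℕ) (_ : ∃ (m : ℕ) (K : Set X → ℕ) (𝒢 : Set (Set Y)) (σ : ℕ → Y → ℂ) (y : Y), 0 < m ∧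
    (∀ D, (K D : ℝ) ≤ m * Δ D) ∧ 𝒢.Finite ∧ (∀ G ∈ 𝒢, J.IsPrime (Cm p) G) ∧
    (∀ b, IsPullSection (n := n) (p := p) m K 𝒢 j f (σ b)) ∧ (∀ G ∈ 𝒢, y ∉ G) ∧ σ 0 y ≠ 0 ∧
    Function.Surjective fun (ξ : Cm p) (b : Fin l) =>
      J.dif (Cm p) (fun w => σ (b + 1) w / σ 0 w) y ξ),
    (l : WithBot ℕ∞)

end

end Vale.Agent.P281.H713.TL
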