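import Vale.Agent.P281.H716.KL.Asm
import Vale.Agent.P281.H498.KD.TKI
import Vale.Agent.P281.H713.TL.Defs

/-! P281, theorem TL: all fibrations, without flatness.  The orbifold base dimension is that of the
meromorphic pluricanonical forms `σ` of `Y` whose pull-backs have poles `≤ m Δ` on `X`. -/

open scoped Manifold ContDiff Topology ComplexOrder
open Set Filter Vale.Agent.P281 Vale.Agent.P272.K Vale.Agent.P299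
open Vale.Agent.P299.H882 (xi)

noncomputable section

namespace Vale.Agent.P281.H713.TL

open Vale.Agent.P281.H713 Vale.Agent.P281.H713.SA Vale.Agent.P281.H716 Vale.Agent.P281.H713.KD
open Vale.Agent.P281.H716.KL Vale.Agent.P281.H498 Vale.Agent.P281.H167 Vale.Agent.P281.H716.IsSys

/-- the constancy of the quotients of the forms `σ` (with poles on `𝒢`) along the common kernel of
the differentials of the `P a / P a₀`, at the points of `R` -/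
def ConstT (n p : ℕ) {X Z Y : Type} [TopologicalSpace X] [ChartedSpace (Cm n) X]
    [TopologicalSpace Z] [ChartedSpace (Cm n) Z] [TopologicalSpace Y] [ChartedSpace (Cm p) Y]
    (j : Z → X) (f : Z → Y) (𝒢 : Set (Set Y)) (Δ : Set X → ℝ) {ι : Type}
    (P : ι → X → ℂ) (R : Set X) : Prop :=
  ∀ (m : ℕ) (K : Set X → ℕ), 0 < m → (∀ D, (K D : ℝ) ≤ m * Δ D) →
    ∀ σ₀ σ₁ : Y → ℂ, IsPullSection (n := n) (p := p) m K 𝒢 j f σ₀ → IsPullSection (n := n) (p := p) m K 𝒢 j f σ₁ →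
    ∀ z : Z, j z ∈ R → (∀ D, Δ D ≠ 0 → j z ∉ D) → f z ∉ ⋃₀ 𝒢 →
    Function.Surjective (dM (Cm n) (Cm p) f z) → σ₀ (f z) ≠ 0 → ∀ a₀, P a₀ (j z) ≠ 0 →
    ∀ v : Cm n, (∀ a, J.dif (Cm n) (fun w => P a w / P a₀ w) (j z) (dM (Cm n) (Cm n) j z v) = 0) →
    J.dif (Cm n) (fun z => σ₁ (f z) / σ₀ (f z)) z v = 0

/-- **Row T1**: `KeyPart` for all fibrations (`f` is submersive somewhere). -/
def KeyPartT : Prop := ∀ (n p μ : ℕ) (X Z Y : Type)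
  [TopologicalSpace X] [T2Space X] [CompactSpace X] [ConnectedSpace X]
  [ChartedSpace (Cm n) X] [IsManifold 𝓘(ℂ, Cm n) ω X]
  [TopologicalSpace Z] [ChartedSpace (Cm n) Z] [IsManifold 𝓘(ℂ, Cm n) ω Z]
  [TopologicalSpace Y] [T2Space Y] [ConnectedSpace Y]
  [ChartedSpace (Cm p) Y] [IsManifold 𝓘(ℂ, Cm p) ω Y]
  (j : Z → X) (_ : J.IsBigOpen (Cm n) j) (f : Z → Y) (_ : ContMDiff 𝓘(ℂ, Cm n) 𝓘(ℂ, Cm p) ω f)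
  (_ : ∃ z, Function.Surjective (mfderiv 𝓘(ℂ, Cm n) 𝓘(ℂ, Cm p) f z))
  (𝒢 : Set (Set Y)) (_ : 𝒢.Finite) (_ : ∀ G ∈ 𝒢, J.IsPrime (Cm p) G)
  (D : Set X) (_ : J.IsPrime (Cm n) D)
  (_ : ∀ z, j z ∈ D → f z ∈ ⋃₀ 𝒢) (B : Set X) (_ : IsClosed B) (_ : Dense Bᶜ)
  (e : Chart n X) (x : X) (_ : At e x) (g : Cm n → ℂ) (_ : AnalyticAt ℂ g (e x))
  (_ : J.IsLocalEq (Cm n) D (fun y => g (e y)) x) (a : (Fin (μ * p) → Fin n) → Cm n → ℂ)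
  (_ : ∀ I, AnalyticAt ℂ (a I) (e x))
  (_ : ∀ᶠ y in 𝓝 x, ∀ z, j z = y → f z ∉ ⋃₀ 𝒢 → y ∉ B → ∃ c : ℂ, ∀ I,
    a I (e y) = c * tT f μ (fun z => e (j z)) I z)
  (I : Fin (μ * p) → Fin n) (s : Fin μ) (k : Fin n), ∃ u : Cm n → ℂ, AnalyticAt ℂ u (e x) ∧
    ∀ᶠ z in 𝓝 (e x), cram (fun I => a I z) (fun l => fderiv ℂ g z (Pi.single l 1)) I s k =
      g z * u z

/-- **Row T2**: the pairs of norms of two pull-backs (`TenPartK'` without flatness). -/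
def TenPartT : Prop := ∀ (n p M : ℕ) (X Z Y : Type)
  [TopologicalSpace X] [T2Space X] [CompactSpace X] [ConnectedSpace X]
  [ChartedSpace (Cm n) X] [IsManifold 𝓘(ℂ, Cm n) ω X]
  [TopologicalSpace Z] [ChartedSpace (Cm n) Z] [IsManifold 𝓘(ℂ, Cm n) ω Z]
  [TopologicalSpace Y] [T2Space Y] [ConnectedSpace Y]
  [ChartedSpace (Cm p) Y] [IsManifold 𝓘(ℂ, Cm p) ω Y]
  (χ : D.FormM n X) (_ : IsKahler χ)
  (j : Z → X) (_ : J.IsBigOpen (Cm n) j) (f : Z → Y) (_ : ContMDiff 𝓘(ℂ, Cm n) 𝓘(ℂ, Cm p) ω f)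
  (_ : ∃ z, Function.Surjective (mfderiv 𝓘(ℂ, Cm n) 𝓘(ℂ, Cm p) f z))
  (𝒢 : Set (Set Y)) (_ : 𝒢.Finite) (_ : ∀ G ∈ 𝒢, J.IsPrime (Cm p) G)
  (Δ : Set X → ℝ) (_ : J.IsSNC (Cm n) Δ)
  (Dv : Fin M → Set X) (_ : Function.Injective Dv) (_ : ∀ D, Δ D ≠ 0 ↔ ∃ i, Dv i = D)
  (r : Fin M → X → ℝ) (R : Fin M → D.FormM n X) (_ : IsBd Dv r R)
  (m : ℕ) (_ : 0 < m) (K₀ : Set X → ℕ) (_ : ∀ D, (K₀ D : ℝ) ≤ m * Δ D)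
  (σ₀ σ₁ : Y → ℂ) (_ : IsPullSection (n := n) (p := p) m K₀ 𝒢 j f σ₀)
  (_ : IsPullSection (n := n) (p := p) m K₀ 𝒢 j f σ₁) (l : ℕ) (_ : 0 < l),
  ∃ (K : Fin M → ℕ) (N₀ N₁ : D.FormM n X → X → ℝ),
    (∀ i, (K i : ℝ) ≤ (m * l : ℕ) * Δ (Dv i)) ∧
    IsDecPair Dv r χ p (m * l) K N₀ N₁ ∧
    (∀ g x, IsKahler g → 0 < N₀ g x → 0 < N₁ g x →
      Real.log (N₁ g x) - Real.log (N₀ g x) = Real.log (N₁ χ x) - Real.log (N₀ χ x)) ∧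
    ∀ z, f z ∉ ⋃₀ 𝒢 → (∀ i, j z ∉ Dv i) →
      Function.Surjective (mfderiv 𝓘(ℂ, Cm n) 𝓘(ℂ, Cm p) f z) → σ₀ (f z) ≠ 0 → σ₁ (f z) ≠ 0 →
      0 < N₀ χ (j z) ∧ 0 < N₁ χ (j z) ∧ Real.log (N₁ χ (j z)) - Real.log (N₀ χ (j z)) =
        l * (Real.log (‖σ₁ (f z)‖ ^ 2) - Real.log (‖σ₀ (f z)‖ ^ 2))

/-- **Row T3** (`BridgeL` without flatness). -/
def BridgeT : Prop := ∀ (n p M : ℕ) (X Z Y : Type)
  [TopologicalSpace X] [T2Space X] [CompactSpace X] [ConnectedSpace X]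
  [ChartedSpace (Cm n) X] [IsManifold 𝓘(ℂ, Cm n) ω X]
  [TopologicalSpace Z] [ChartedSpace (Cm n) Z] [IsManifold 𝓘(ℂ, Cm n) ω Z]
  [TopologicalSpace Y] [T2Space Y] [ConnectedSpace Y]
  [ChartedSpace (Cm p) Y] [IsManifold 𝓘(ℂ, Cm p) ω Y]
  (χ : D.FormM n X) (_ : IsKahler χ)
  (j : Z → X) (_ : J.IsBigOpen (Cm n) j) (f : Z → Y) (_ : ContMDiff 𝓘(ℂ, Cm n) 𝓘(ℂ, Cm p) ω f)
  (_ : ∃ z, Function.Surjective (mfderiv 𝓘(ℂ, Cm n) 𝓘(ℂ, Cm p) f z))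
  (𝒢 : Set (Set Y)) (_ : 𝒢.Finite) (_ : ∀ G ∈ 𝒢, J.IsPrime (Cm p) G)
  (Δ : Set X → ℝ) (_ : J.IsSNC (Cm n) Δ)
  (Dv : Fin M → Set X) (_ : Function.Injective Dv) (_ : ∀ D, Δ D ≠ 0 ↔ ∃ i, Dv i = D)
  (r : Fin M → X → ℝ) (R : Fin M → D.FormM n X) (_ : IsBd Dv r R) (m₀ : ℕ) (_ : 0 < m₀)
  (N : ℕ) (P : Fin N → X → ℂ) (R' : Set X)
  (_ : ∀ (p' μ : ℕ) (K : Fin M → ℕ) (N₀ N₁ : D.FormM n X → X → ℝ) (u : X → ℝ), m₀ ∣ μ →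
    (∀ i, (K i : ℝ) ≤ μ * Δ (Dv i)) → IsDecPair Dv r χ p' μ K N₀ N₁ →
    (∀ g x, IsKahler g → 0 < N₀ g x → 0 < N₁ g x →
      u x = Real.log (N₁ g x) - Real.log (N₀ g x)) →
    ∀ x ∈ R', 0 < N₀ χ x → 0 < N₁ χ x → ∀ e, At e x → ∀ a₀, P a₀ x ≠ 0 → ∀ v : Cm n,
      (∀ a, fderiv ℂ (fun z => P a (e.symm z) / P a₀ (e.symm z)) (e x) v = 0) →
      ∑ i, xi u e (e x) i * v i = 0),
  ConstT n p j f 𝒢 Δ P R'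

/-- **Row T4** (`main_absP` without flatness). -/
def AbsPartT : Prop := ∀ (n p d : ℕ) (_ : n = p + d) (X Z Y F : Type)
  [TopologicalSpace X] [T2Space X] [CompactSpace X] [ConnectedSpace X]
  [ChartedSpace (Cm n) X] [IsManifold 𝓘(ℂ, Cm n) ω X]
  [TopologicalSpace Z] [ChartedSpace (Cm n) Z] [IsManifold 𝓘(ℂ, Cm n) ω Z]
  [TopologicalSpace Y] [T2Space Y] [ConnectedSpace Y]
  [ChartedSpace (Cm p) Y] [IsManifold 𝓘(ℂ, Cm p) ω Y]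
  [TopologicalSpace F] [T2Space F] [CompactSpace F] [ConnectedSpace F]
  [ChartedSpace (Cm d) F] [IsManifold 𝓘(ℂ, Cm d) ω F]
  (Δ : Set X → ℝ) (_ : J.IsSNC (Cm n) Δ)
  (j : Z → X) (_ : J.IsBigOpen (Cm n) j) (f : Z → Y) (_ : ContMDiff 𝓘(ℂ, Cm n) 𝓘(ℂ, Cm p) ω f)
  (i : F → Z) (_ : IsSmoothFibre (Cm n) (Cm p) (Cm d) f i)
  (_ : ∀ D, Δ D ≠ 0 → ∃ t, j (i t) ∉ D)
  (ι : Type) (_ : Finite ι) (mP : ℕ) (_ : 0 < mP) (kP : Set X → ℕ)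
  (_ : ∀ D, (kP D : ℝ) ≤ mP * Δ D) (P : ι → X → ℂ)
  (_ : ∀ a, J.IsSection (Cm n) (eqL n) mP kP (P a))
  (R : Set X) (_ : IsOpen R) (_ : Dense R)
  (_ : ∀ 𝒢 : Set (Set Y), 𝒢.Finite → (∀ G ∈ 𝒢, J.IsPrime (Cm p) G) → ConstT n p j f 𝒢 Δ P R)
  (RF : Set F) (_ : Dense RF)
  (_ : FlatSec d (eqF n (fun t => j (i t))) Δ (fun a t => P a (j (i t))) RF)
  (_ : ∀ t ∈ RF, ∃ a, P a (j (i t)) ≠ 0),
  J.kod (Cm d) (eqF n (fun t => j (i t))) Δ + kodF (n := n) (p := p) Δ j f ≤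
    J.kod (Cm n) (eqL n) Δ

/-- **Row T6** (comparison): if the components of the preimage of `B(f, Δ')` dominate its
components, then `κ(Y, K_Y + B(f, Δ')) ≤ kodF`. -/
def CompPartT : Prop := ∀ (n p : ℕ) (X Z Y : Type)
  [TopologicalSpace X] [T2Space X] [CompactSpace X] [ConnectedSpace X]
  [ChartedSpace (Cm n) X] [IsManifold 𝓘(ℂ, Cm n) ω X]
  [TopologicalSpace Z] [ChartedSpace (Cm n) Z] [IsManifold 𝓘(ℂ, Cm n) ω Z]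
  [TopologicalSpace Y] [T2Space Y] [ConnectedSpace Y]
  [ChartedSpace (Cm p) Y] [IsManifold 𝓘(ℂ, Cm p) ω Y]
  (Δ : Set X → ℝ) (_ : J.IsSNC (Cm n) Δ)
  (j : Z → X) (_ : J.IsBigOpen (Cm n) j) (f : Z → Y) (_ : ContMDiff 𝓘(ℂ, Cm n) 𝓘(ℂ, Cm p) ω f)
  (𝒢 : Set (Set Y)) (_ : J.IsDivisorial (Cm n) (Cm p) f 𝒢)
  (Δ' : Set Z → ℝ) (_ : J.IsSNC (Cm n) Δ') (_ : J.IsRestriction j Δ Δ')
  (_ : ∀ G, J.orbBase' (Cm n) (Cm p) f Δ' G ≠ 0 → G ∈ 𝒢),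
  J.kod (Cm p) (fun (G : Set Y) y g => J.IsLocalEq (Cm p) G g y) (J.orbBase' (Cm n) (Cm p) f Δ') ≤
    kodF (n := n) (p := p) Δ j f

/-- **Theorem TL**: theorem KGL for all fibrations. -/
def MainPartT : Prop := ∀ (n p d : ℕ) (_ : n = p + d) (X Z Y F : Type)
  [TopologicalSpace X] [T2Space X] [CompactSpace X] [ConnectedSpace X]
  [ChartedSpace (Cm n) X] [IsManifold 𝓘(ℂ, Cm n) ω X]
  [TopologicalSpace Z] [ChartedSpace (Cm n) Z] [IsManifold 𝓘(ℂ, Cm n) ω Z]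
  [TopologicalSpace Y] [T2Space Y] [ConnectedSpace Y]
  [ChartedSpace (Cm p) Y] [IsManifold 𝓘(ℂ, Cm p) ω Y]
  [TopologicalSpace F] [T2Space F] [CompactSpace F] [ConnectedSpace F]
  [ChartedSpace (Cm d) F] [IsManifold 𝓘(ℂ, Cm d) ω F]
  (χ : Chart n X → Cm n → Matrix (Fin n) (Fin n) ℂ) (_ : IsKahler χ)
  (Δ Δ₀ : Set X → ℝ) (_ : J.IsSNC (Cm n) Δ) (_ : ∀ D, ∃ q : ℚ, Δ₀ D = q ∧ 0 ≤ q ∧ q < 1)
  (_ : ∀ D, Δ₀ D ≤ Δ D) (t : ℝ) (_ : 0 < t) (_ : t ≤ 1)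
  (m N : ℕ) (_ : 0 < m) (k : Set X → ℕ) (_ : ∀ D, (k D : ℝ) = m * Δ₀ D) (S : Fin N → X → ℂ)
  (_ : ∀ b, J.IsSection (Cm n) (fun (D : Set X) z g => J.IsLocalEq (Cm n) D g z) m k (S b))
  (m' N' : ℕ) (_ : 0 < m') (k' : Set X → ℕ)
  (_ : ∀ D, (k' D : ℝ) = m' * (Δ₀ D + t * (Δ D - Δ₀ D))) (S' : Fin N' → X → ℂ)
  (_ : ∀ b, J.IsSection (Cm n) (fun (D : Set X) z g => J.IsLocalEq (Cm n) D g z) m' k' (S' b))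
  (j : Z → X) (_ : J.IsBigOpen (Cm n) j) (f : Z → Y) (_ : ContMDiff 𝓘(ℂ, Cm n) 𝓘(ℂ, Cm p) ω f)
  (i : F → Z) (_ : IsSmoothFibre (Cm n) (Cm p) (Cm d) f i)
  (_ : ∀ D, Δ D ≠ 0 → ∃ t, j (i t) ∉ D)
  (ν : ℕ) (_ : HasRankP n ν (k + k') id (prodF S S'))
  (β : Chart n X → Cm n → Matrix (Fin n) (Fin n) ℂ) (_ : IsSemiKahler β)
  (_ : IsGoodFix2 m m' ν k k' S S' β)
  (νF : ℕ) (_ : HasRankP d νF (k + k') (fun t => j (i t)) (prodF S S'))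
  (βF : Chart d F → Cm d → Matrix (Fin d) (Fin d) ℂ) (_ : IsSemiKahler βF)
  (_ : IsGoodFixP n d (m + m') νF (k + k') (fun t => j (i t)) (prodF S S') βF),
  J.kod (Cm d) (fun (D : Set X) t g => ∃ e, J.IsLocalEq (Cm n) D e (j (i t)) ∧
      ∀ᶠ t' in 𝓝 t, g t' = e (j (i t'))) Δ + kodF (n := n) (p := p) Δ j f ≤
    J.kod (Cm n) (fun (D : Set X) x g => J.IsLocalEq (Cm n) D g x) Δ

end Vale.Agent.P281.H713.TL
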